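import Vale.Agent.P251C.Defs
import Vale.Agent.P251CJ.Pair
import Vale.Agent.P251CA.Base
import Vale.Agent.P251CD.Wedge

/-!
# The fully faithful functor from orthogonal spectra to continuous functors
-/

open CategoryTheory MonoidalCategory Topology OnePoint

namespace Vale.Agent.P251CI

open Vale.Agent.P251.H Vale.Agent.P251CA Vale.Agent.P251CA.CF Vale.Agent.P251CJ
open Vale.Agent.P251CD
open Vale.Agent.P251C (OSp Emb)
open Vale.Agent.P251.G (LC)
open Vale.Agent.P251.H.PQ (Pt)

/-- the point of the Thom space given by a morphism of words -/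
noncomputable def tp {a b : Sp0} (w : a ⟶ b) : OnePoint (Emb a.dim b.dim) :=
  Ch.toP (cr a) (cr b) w

theorem tp_homP {a b : Sp0} (e : OnePoint (Emb a.dim b.dim)) :
    tp (Ch.homP (cr a) (cr b) e) = e := Ch.toP_homP _ _ e

theorem homP_tp {a b : Sp0} (w : a ⟶ b) : Ch.homP (cr a) (cr b) (tp w) = w := Ch.homP_toP _ _ w

theorem tp_eh {m n : ℕ} (e : OnePoint (Emb m n)) : tp (eh e) = e := Ch.toP_homP _ _ e

theorem tp_zero (a b : Sp0) : tp (0 : a ⟶ b) = ∞ := Ch.toP_zero _ _

theorem tp_eq {a b : Sp0} {w : a ⟶ b} {e : Emb a.dim b.dim}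
    (h : ∀ x : a.s, LC.app w.hom (x : OnePoint a.s) =
      ((b.crd.symm (P251C.ap e (a.crd x)) : b.s) : OnePoint b.s)) :
    tp w = (e : OnePoint (Emb a.dim b.dim)) :=
  (congrArg tp (Sp0.app_ext h : w = Ch.homP (cr a) (cr b) e)).trans (tp_homP _)

theorem plot_iff_tp {a b : Sp0} {K : CH} {w : K → (a ⟶ b)} :
    Sp0.plot K w ↔ Continuous (fun k => tp (w k)) := Ch.plot_iffP (cr a) (cr b)

variable (X Y Z : OSp)

theorem act_tp_id (a : Sp0) (y : X.sp a.dim) : X.act (tp (𝟙 a)) y = y := by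
  obtain ⟨e, he⟩ := exists_ap_id a.dim
  rw [← Ch.homP_id (cr a) he, tp_homP]
  exact X.act_id _ e he y

theorem act_tp_comp {a b c : Sp0} (w : a ⟶ b) (v : b ⟶ c) (y : X.sp a.dim) :
    X.act (tp (w ≫ v)) y = X.act (tp v) (X.act (tp w) y) := by
  rcases Ch.zero_or (cr a) (cr b) w with rfl | ⟨e, rfl⟩
  · rw [Limits.zero_comp, tp_zero, tp_zero, X.act_infty, X.act_infty, X.act_pt]
  rcases Ch.zero_or (cr b) (cr c) v with rfl | ⟨r, rfl⟩
  · rw [Limits.comp_zero, tp_zero, tp_zero, X.act_infty, X.act_infty]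
  obtain ⟨s, hs⟩ := exists_ap_comp e r
  rw [← Ch.homP_comp _ _ _ hs, tp_homP, tp_homP, tp_homP]
  exact X.act_comp _ _ _ e r s hs y

theorem act_tp_toEuc (a : Sp0) (y : X.sp a.dim) : X.act (tp a.toEuc.hom) y = y := by
  obtain ⟨e, he⟩ := exists_ap_id a.dim
  have : tp a.toEuc.hom = (e : OnePoint (Emb a.dim a.dim)) :=
    tp_eq (b := Sp0.euc a.dim) fun x => congrArg OnePoint.some (he (a.crd x)).symm
  rw [this]
  exact X.act_id _ e he y

theorem act_tp_toEuc_inv (a : Sp0) (y : X.sp a.dim) : X.act (tp a.toEuc.inv) y = y := by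
  have h := act_tp_comp X a.toEuc.hom a.toEuc.inv y
  rw [Iso.hom_inv_id, act_tp_id, act_tp_toEuc] at h
  exact h.symm

/-- the continuous functor of an orthogonal spectrum -/
noncomputable def qObj : CF where
  obj a := ofTop (X.sp a.dim) (X.pt a.dim)
  map {a b} w := ⟨fun x => (Pt.equiv _ _).symm (X.act (tp w) (Pt.equiv _ _ x)), by
      rw [Pt.equiv_infty, X.act_pt, Pt.equiv_symm_base],
    fun K f hf => ofTop_plot ((X.cont _ _).comp (continuous_const.prodMk hf))⟩
  map_id a := PQ.hom_ext' fun x => by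
    change (Pt.equiv _ _).symm (X.act (tp (𝟙 a)) (Pt.equiv _ _ x)) = x
    rw [act_tp_id, Equiv.symm_apply_apply]
  map_comp {a b c} w v := PQ.hom_ext' fun x => by
    change (Pt.equiv _ _).symm (X.act (tp (w ≫ v)) (Pt.equiv _ _ x)) =
      (Pt.equiv _ _).symm (X.act (tp v) (Pt.equiv _ _
        ((Pt.equiv _ _).symm (X.act (tp w) (Pt.equiv _ _ x)))))
    rw [act_tp_comp, Equiv.apply_symm_apply]
  map_zero a b := PQ.hom_ext' fun x => by
    change (Pt.equiv _ _).symm (X.act (tp (0 : a ⟶ b)) (Pt.equiv _ _ x)) = ∞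
    rw [tp_zero, X.act_infty, Pt.equiv_symm_base]
  map_plot {a b} K w x hw hx :=
    ofTop_plot ((X.cont _ _).comp ((plot_iff_tp.1 hw).prodMk hx))

variable {X Y Z}

theorem app_act (f : X ⟶ Y) {m n : ℕ} (e : OnePoint (Emb m n)) (x : X.sp m) :
    f.app n (X.act e x) = Y.act e (f.app m x) := by
  induction e using OnePoint.rec with
  | infty => rw [X.act_infty, Y.act_infty, f.pt]
  | coe e => exact f.nat m n e x

/-- the morphism of continuous functors of a morphism of orthogonal spectra -/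
noncomputable def qMap (f : X ⟶ Y) : qObj X ⟶ qObj Y :=
  homMk (fun a x => (Pt.equiv _ _).symm (f.app a.dim (Pt.equiv _ _ x)))
    (fun a => (congrArg (Pt.equiv _ _).symm (f.pt a.dim)).trans (Pt.equiv_symm_base _ _))
    (fun a K x hx => ofTop_plot ((f.app a.dim).continuous.comp hx))
    (fun {a b} w x => by
      change (Pt.equiv _ _).symm (f.app b.dim (Pt.equiv _ _
          ((Pt.equiv _ _).symm (X.act (tp w) (Pt.equiv _ _ x))))) =
        (Pt.equiv _ _).symm (Y.act (tp w) (Pt.equiv _ _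
          ((Pt.equiv _ _).symm (f.app a.dim (Pt.equiv _ _ x)))))
      rw [Equiv.apply_symm_apply, Equiv.apply_symm_apply, app_act])

/-- **The functor from orthogonal spectra to continuous functors.** -/
noncomputable def q : OSp ⥤ CF where
  obj := qObj
  map := qMap
  map_id X := hom_ext fun _ x => (Pt.equiv _ _).symm_apply_apply x
  map_comp {X Y Z} f g := hom_ext fun a x => by
    change _ = (Pt.equiv _ _).symm (g.app a.dim (Pt.equiv _ _
      ((Pt.equiv _ _).symm (f.app a.dim (Pt.equiv _ _ x)))))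
    rw [Equiv.apply_symm_apply]
    rfl

theorem q_obj_obj (X : OSp) (a : Sp0) : (q.obj X).obj a = ofTop (X.sp a.dim) (X.pt a.dim) := rfl

/-- a point of a level as a point of the continuous functor -/
noncomputable def up (a : Sp0) (x : X.sp a.dim) : OnePoint ((q.obj X).obj a) :=
  (Pt.equiv _ _).symm x

/-- a point of the continuous functor as a point of a level -/
noncomputable def dn {a : Sp0} (x : OnePoint ((q.obj X).obj a)) : X.sp a.dim := Pt.equiv _ _ x

@[simp] theorem dn_up (a : Sp0) (x : X.sp a.dim) : dn (up a x) = x := Equiv.apply_symm_apply _ _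

@[simp] theorem up_dn {a : Sp0} (x : OnePoint ((q.obj X).obj a)) : up a (dn x) = x :=
  Equiv.symm_apply_apply _ _

@[simp] theorem dn_infty (a : Sp0) : dn (∞ : OnePoint ((q.obj X).obj a)) = X.pt a.dim := rfl

@[simp] theorem up_pt (a : Sp0) : up a (X.pt a.dim) = ∞ := Pt.equiv_symm_base _ _

theorem dn_injective {a : Sp0} : Function.Injective (dn : OnePoint ((q.obj X).obj a) → _) :=
  Function.LeftInverse.injective up_dn

theorem up_injective (a : Sp0) : Function.Injective (up a : X.sp a.dim → _) :=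
  Function.LeftInverse.injective (dn_up a)

theorem up_surjective {a : Sp0} (x : OnePoint ((q.obj X).obj a)) : ∃ y, up a y = x :=
  ⟨_, up_dn x⟩

theorem dn_act {a b : Sp0} (w : a ⟶ b) (x : OnePoint ((q.obj X).obj a)) :
    dn ((q.obj X).act w x) = X.act (tp w) (dn x) := Equiv.apply_symm_apply _ _

theorem act_up {a b : Sp0} (w : a ⟶ b) (x : X.sp a.dim) :
    (q.obj X).act w (up a x) = up b (X.act (tp w) x) :=
  dn_injective (by rw [dn_act, dn_up, dn_up])

theorem act_eh_up {m n : ℕ} (e : OnePoint (Emb m n)) (x : X.sp m) :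
    (q.obj X).act (eh e) (up (Sp0.euc m) x) = up (Sp0.euc n) (X.act e x) :=
  (act_up (eh e) x).trans (congrArg (fun z => up (Sp0.euc n) (X.act z x)) (tp_eh e))

theorem dn_act_eh {m n : ℕ} (e : OnePoint (Emb m n)) (x : OnePoint ((q.obj X).obj (Sp0.euc m))) :
    dn ((q.obj X).act (eh e) x) = X.act e (dn x) :=
  (dn_act (eh e) x).trans (congrArg (fun z => X.act z (dn x)) (tp_eh e))

theorem act_toEuc_up (a : Sp0) (x : X.sp a.dim) :
    (q.obj X).act a.toEuc.hom (up a x) = up (Sp0.euc a.dim) x :=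
  (act_up a.toEuc.hom x).trans (congrArg (up (Sp0.euc a.dim)) (act_tp_toEuc X a x))

theorem act_toEuc_inv_up (a : Sp0) (x : X.sp a.dim) :
    (q.obj X).act a.toEuc.inv (up (Sp0.euc a.dim) x) = up a x :=
  (act_up a.toEuc.inv x).trans (congrArg (up a) (act_tp_toEuc_inv X a x))

theorem dn_act_toEuc {a : Sp0} (x : OnePoint ((q.obj X).obj a)) :
    dn ((q.obj X).act a.toEuc.hom x) = dn x :=
  (dn_act a.toEuc.hom x).trans (act_tp_toEuc X a _)

theorem dn_act_toEuc_inv {a : Sp0} (x : OnePoint ((q.obj X).obj (Sp0.euc a.dim))) :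
    dn ((q.obj X).act a.toEuc.inv x) = dn x :=
  (dn_act a.toEuc.inv x).trans (act_tp_toEuc_inv X a _)

theorem q_plot_iff {a : Sp0} {K : CH} {x : K → OnePoint ((q.obj X).obj a)} :
    ((q.obj X).obj a).plot K x ↔ Continuous (fun k => dn (x k)) := Iff.rfl

theorem up_plot (a : Sp0) {K : CH} {x : K → X.sp a.dim} (hx : Continuous x) :
    ((q.obj X).obj a).plot K (fun k => up a (x k)) := ofTop_plot hx

theorem dn_fn (f : X ⟶ Y) {a : Sp0} (x : OnePoint ((q.obj X).obj a)) :
    dn (fn (q.map f) x) = f.app a.dim (dn x) := Equiv.apply_symm_apply _ _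

theorem fn_up (f : X ⟶ Y) (a : Sp0) (x : X.sp a.dim) :
    fn (q.map f) (up a x) = up a (f.app a.dim x) := dn_injective (by rw [dn_fn, dn_up, dn_up])

/-- Morphisms of continuous functors are determined by the euclidean levels. -/
theorem euc_ext {A B : CF} {f g : A ⟶ B}
    (h : ∀ (n : ℕ) (x : OnePoint (A.obj (Sp0.euc n))), fn f x = fn g x) : f = g := by
  apply hom_ext
  intro a x
  rw [← A.act_hom_inv a.toEuc x, fn_act f a.toEuc.inv, fn_act g a.toEuc.inv, h]

theorem osp_ext {f g : X ⟶ Y} (h : ∀ n x, f.app n x = g.app n x) : f = g :=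
  OSp.Hom.ext (funext fun n => ContinuousMap.ext (h n))

/-- the morphism of orthogonal spectra given by a morphism of continuous functors -/
noncomputable def unq (g : q.obj X ⟶ q.obj Y) : X ⟶ Y where
  app n := ⟨fun x => dn (a := Sp0.euc n) (fn g (up (Sp0.euc n) x)),
    haveI := X.cg n
    continuous_from_compactlyGeneratedSpace _ fun K _ _ _ _ hx =>
      fn_plot g (up_plot (Sp0.euc n) (K := CH.of K) hx)⟩
  pt n := (congrArg (fun z => dn (a := Sp0.euc n) (fn g z)) (up_pt (Sp0.euc n))).trans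
    (congrArg dn (fn_infty g _))
  nat m n e x := by
    refine (congrArg (fun z => dn (a := Sp0.euc n) (fn g z)) (act_eh_up (.some e) x).symm).trans ?_
    exact (congrArg dn (fn_act g _ _)).trans (dn_act_eh _ _)

theorem unq_app (g : q.obj X ⟶ q.obj Y) (n : ℕ) (x : X.sp n) :
    (unq g).app n x = dn (a := Sp0.euc n) (fn g (up (Sp0.euc n) x)) := rfl

theorem q_map_unq (g : q.obj X ⟶ q.obj Y) : q.map (unq g) = g :=
  euc_ext fun n x => dn_injective ((dn_fn _ x).trans
    (congrArg (fun z => dn (a := Sp0.euc n) (fn g z)) (up_dn x)))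

theorem unq_q_map (f : X ⟶ Y) : unq (q.map f) = f :=
  osp_ext fun n x => (dn_fn f (up (Sp0.euc n) x)).trans
    (congrArg (f.app n) (dn_up (Sp0.euc n) x))

/-- `q` is fully faithful -/
noncomputable def qFF : q.FullyFaithful where
  preimage := unq
  map_preimage := q_map_unq
  preimage_map := unq_q_map

instance : q.Full := qFF.full

instance : q.Faithful := qFF.faithful

theorem sat_q (X : OSp) (a : Sp0) : Sat ((q.obj X).obj a) := sat_ofTop _ _

theorem whp_q (X : OSp) (a : Sp0) : WHp ((q.obj X).obj a) :=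
  whp_ofTop _ _ fun K g hg => X.wh _ K ⟨g, hg⟩

end Vale.Agent.P251CI
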