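import Vale.Agent.P251.H.Wst

/-!
# Stable equivalences described by maps out of the test objects themselves
-/

open CategoryTheory Category MonoidalCategory Limits

namespace Vale.Agent.P251CI

open Vale.Agent.P251.H

universe v u

section CoPt

variable {K : Type u} [Category.{v} K] (P : CoPt K)

/-- iterated powers -/
theorem exists_pw_iso (j : ℕ) (A : K) (k : ℕ) :
    ∃ φ : P.pw (j + k) A ≅ P.pw k (P.pw j A),
      φ.hom ≫ P.tk k (P.pw j A) = P.tr (Nat.le_add_right j k) A := by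
  induction k with
  | zero => exact ⟨Iso.refl _, by simp⟩
  | succ k ih =>
    obtain ⟨φ, hφ⟩ := ih
    refine ⟨P.F.mapIso φ, ?_⟩
    rw [P.tk_succ, Functor.mapIso_hom, P.nat_assoc, hφ]
    exact (P.tr_succ_right (Nat.le_add_right j k) A).symm

/-- the surjectivity clause -/
def S0 {X Y : K} (f : X ⟶ Y) (A : K) : Prop :=
  ∀ y : A ⟶ Y, ∃ (k : ℕ) (x : P.pw k A ⟶ X), x ≫ f = P.tk k A ≫ y

/-- the injectivity clause -/
def I0 {X Y : K} (f : X ⟶ Y) (A : K) : Prop :=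
  ∀ x x' : A ⟶ X, x ≫ f = x' ≫ f → ∃ k : ℕ, P.tk k A ≫ x = P.tk k A ≫ x'

theorem W_iff (GG : ObjectProperty K) (hG : ∀ A, GG A → GG (P.F.obj A)) {X Y : K} (f : X ⟶ Y) :
    P.W GG f ↔ ∀ A, GG A → S0 P f A ∧ I0 P f A := by
  have hpw : ∀ A, GG A → ∀ k, GG (P.pw k A) := fun A hA k => by
    induction k with
    | zero => exact hA
    | succ k ih => exact hG _ ih
  constructor
  · intro h A hA
    refine ⟨fun y => ?_, fun x x' e => ?_⟩
    · obtain ⟨z, hz⟩ := (h A hA).2 (P.cl 0 y)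
      obtain ⟨k, x, rfl⟩ := CoPt.cl_surj z
      rw [CoPt.map_cl, CoPt.cl_eq_iff] at hz
      obtain ⟨m, h1, h2, e⟩ := hz
      exact ⟨m, P.tr h1 A ≫ x, by rw [assoc, e]; rfl⟩
    · have : P.cl (A := A) 0 x = P.cl 0 x' := (h A hA).1 (by
        rw [CoPt.map_cl, CoPt.map_cl]
        exact congrArg (P.cl (A := A) 0) e)
      obtain ⟨m, h1, e⟩ := (CoPt.cl_eq_iff' (P := P) (A := A) (k := 0) x x').1 this
      exact ⟨m, e⟩
  · intro h A hA
    constructor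
    · intro z z' e
      obtain ⟨j, x, x', rfl, rfl⟩ := CoPt.cl_surj₂ z z'
      rw [CoPt.map_cl, CoPt.map_cl, CoPt.cl_eq_iff'] at e
      obtain ⟨m, hm, e⟩ := e
      obtain ⟨k, hk⟩ := (h _ (hpw A hA m)).2 (P.tr hm A ≫ x) (P.tr hm A ≫ x')
        (by rw [assoc, assoc, e])
      obtain ⟨φ, hφ⟩ := exists_pw_iso P m A k
      rw [CoPt.cl_eq_iff']
      refine ⟨m + k, hm.trans (Nat.le_add_right m k), ?_⟩
      rw [← P.tr_tr hm (Nat.le_add_right m k), ← hφ, assoc, assoc, assoc, assoc, hk]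
    · intro z
      obtain ⟨j, y, rfl⟩ := CoPt.cl_surj z
      obtain ⟨k, x, hx⟩ := (h _ (hpw A hA j)).1 y
      obtain ⟨φ, hφ⟩ := exists_pw_iso P j A k
      refine ⟨P.cl (j + k) (φ.hom ≫ x), ?_⟩
      rw [CoPt.map_cl, assoc, hx, ← assoc, hφ, CoPt.cl_tr]

end CoPt

open Vale.Agent.P251.G Vale.Agent.P251.G.LC StabInput

variable {M : Type u} [Category.{v} M] [MonoidalCategory M] [SymmetricCategory M]
    [MonoidalClosed M] [HasZeroMorphisms M] [HasColimitsOfSize.{0, 0} M] [StabInput M]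

/-- `U ⊗ (U ⊗ ⋯ ⊗ A)` -/
abbrev pwM (k : ℕ) (A : M) : M := ((stab M).coPt.pw k ((HM.proj M).obj A)).obj

/-- the augmentation `U ⊗ (U ⊗ ⋯ ⊗ A) ⟶ A` -/
def tkM : (k : ℕ) → (A : M) → (pwM k A ⟶ A)
  | 0, A => 𝟙 A
  | k + 1, A => (lamU M ▷ pwM k A ≫ (λ_ (pwM k A)).hom) ≫ tkM k A

theorem proj_tkM (k : ℕ) (A : M) :
    (HM.proj M).map (tkM k A) = (stab M).coPt.tk k ((HM.proj M).obj A) := by
  induction k with
  | zero => exact ((stab M).coPt.tk_zero _).symm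
  | succ k ih =>
    rw [CoPt.tk_succ, ← ih]
    rfl

/-- the surjectivity clause in `M` -/
def SM {X Y : M} (f : X ⟶ Y) (A : M) : Prop :=
  ∀ y : A ⟶ Y, ∃ (k : ℕ) (x : pwM k A ⟶ X), MHtpy (x ≫ f) (tkM k A ≫ y)

/-- the injectivity clause in `M` -/
def IM {X Y : M} (f : X ⟶ Y) (A : M) : Prop :=
  ∀ x x' : A ⟶ X, MHtpy (x ≫ f) (x' ≫ f) → ∃ k : ℕ, MHtpy (tkM k A ≫ x) (tkM k A ≫ x')

theorem S0_iff {X Y : M} (f : X ⟶ Y) (A : M) :
    S0 (stab M).coPt ((HM.proj M).map f) ((HM.proj M).obj A) ↔ SM f A := by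
  constructor
  · intro h y
    obtain ⟨k, x, hx⟩ := h ((HM.proj M).map y)
    obtain ⟨x, rfl⟩ := HM.proj_map_surjective x
    rw [← proj_tkM] at hx
    exact ⟨k, x, (HM.proj_map_eq_iff _ _).1 hx⟩
  · intro h y
    obtain ⟨y, rfl⟩ := HM.proj_map_surjective y
    obtain ⟨k, x, hx⟩ := h y
    refine ⟨k, (HM.proj M).map x, ?_⟩
    rw [← proj_tkM]
    exact HM.sound hx

theorem I0_iff {X Y : M} (f : X ⟶ Y) (A : M) :
    I0 (stab M).coPt ((HM.proj M).map f) ((HM.proj M).obj A) ↔ IM f A := by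
  constructor
  · intro h x x' e
    obtain ⟨k, hk⟩ := h ((HM.proj M).map x) ((HM.proj M).map x') (HM.sound e)
    rw [← proj_tkM] at hk
    exact ⟨k, (HM.proj_map_eq_iff _ _).1 hk⟩
  · intro h x x' e
    obtain ⟨x, rfl⟩ := HM.proj_map_surjective x
    obtain ⟨x', rfl⟩ := HM.proj_map_surjective x'
    obtain ⟨k, hk⟩ := h x x' ((HM.proj_map_eq_iff _ _).1 e)
    refine ⟨k, ?_⟩
    rw [← proj_tkM]
    exact HM.sound hk

/-- Stable equivalences, tested on maps out of the test objects. -/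
theorem piW_iff_SM (GG : ObjectProperty M) [IsTest GG] {X Y : M} (f : X ⟶ Y) :
    piW GG f ↔ ∀ A, GG A → SM f A ∧ IM f A := by
  refine (W_iff (stab M).coPt (fun A => GG A.obj) (fun A hA => IsTest.U_tensor GG hA)
    ((HM.proj M).map f)).trans ⟨fun h A hA => ?_, fun h A hA => ?_⟩
  · exact ⟨(S0_iff f A).1 (h ⟨A⟩ hA).1, (I0_iff f A).1 (h ⟨A⟩ hA).2⟩
  · exact ⟨(S0_iff f A.obj).2 (h _ hA).1, (I0_iff f A.obj).2 (h _ hA).2⟩

end Vale.Agent.P251CI
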