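import Vale.Agent.P251CA.Base

/-!
# Free objects of `CF`: universal elements
-/

open CategoryTheory MonoidalCategory Topology OnePoint

namespace Vale.Agent.P251CI

open Vale.Agent.P251.H Vale.Agent.P251CA Vale.Agent.P251CA.CF
open Vale.Agent.P251.G (LC)
open Vale.Agent.P251.G.LC (smash RR II)
open Vale.Agent.P251CA.PQ (kp kpu)

/-- `A` is free on the family of points `u`. -/
def Univ {A : CF} {a : Sp0} {K : PQ} (u : K ⟶ A.obj a) : Prop :=
  ∀ X : CF, Function.Bijective (fun f : A ⟶ X => u ≫ Hom.app f a)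

variable {A B : CF} {a b : Sp0} {K K' : PQ}

theorem univ_smul (K : PQ) (a : Sp0) : Univ (smulUnit K a) :=
  fun X => (smulYoEquiv K X a).bijective

theorem univ_F (K : PQ) : Univ (Funit K) := fun X => (FEquiv K X).bijective

theorem Univ.iso {u : K ⟶ A.obj a} (h : Univ u) (e : A ≅ B) : Univ (u ≫ Hom.app e.hom a) := by
  intro X
  have : (fun f : B ⟶ X => (u ≫ Hom.app e.hom a) ≫ Hom.app f a) =
      (fun f : A ⟶ X => u ≫ Hom.app f a) ∘ (e.homFromEquiv (Z := X)).symm := by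
    funext f
    exact Category.assoc _ _ _
  rw [this]
  exact (h X).comp (e.homFromEquiv (Z := X)).symm.bijective

theorem Univ.pre {u : K ⟶ A.obj a} (h : Univ u) (e : K' ≅ K) : Univ (e.hom ≫ u) := by
  intro X
  have : (fun f : A ⟶ X => (e.hom ≫ u) ≫ Hom.app f a) =
      (e.homFromEquiv (Z := X.obj a)).symm ∘ (fun f : A ⟶ X => u ≫ Hom.app f a) := by
    funext f
    exact Category.assoc _ _ _
  rw [this]
  exact (e.homFromEquiv (Z := X.obj a)).symm.bijective.comp (h X)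

theorem Univ.act {u : K ⟶ A.obj a} (h : Univ u) (e : a ≅ b) : Univ (u ≫ A.map e.hom) := by
  intro X
  have : (fun f : A ⟶ X => (u ≫ A.map e.hom) ≫ Hom.app f b) =
      ((X.toFunctor.mapIso e).homToEquiv (Z := K)) ∘ (fun f : A ⟶ X => u ≫ Hom.app f a) := by
    funext f
    change (u ≫ A.map e.hom) ≫ Hom.app f b = (u ≫ Hom.app f a) ≫ X.map e.hom
    rw [Category.assoc, Category.assoc, f.naturality]
  rw [this]
  exact ((X.toFunctor.mapIso e).homToEquiv (Z := K)).bijective.comp (h X)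

theorem Univ.ext {u : K ⟶ A.obj a} (h : Univ u) {X : CF} {f g : A ⟶ X}
    (e : ∀ k, fn f (PQ.app u k) = fn g (PQ.app u k)) : f = g :=
  (h X).1 (PQ.hom_ext' e)

theorem Univ.exists_desc {u : K ⟶ A.obj a} (h : Univ u) {X : CF} (g : K ⟶ X.obj a) :
    ∃ f : A ⟶ X, u ≫ Hom.app f a = g := (h X).2 g

theorem Univ.exists_iso {u : K ⟶ A.obj a} {v : K ⟶ B.obj a} (h : Univ u) (h' : Univ v) :
    ∃ e : A ≅ B, u ≫ Hom.app e.hom a = v := by
  obtain ⟨f, hf⟩ := h.exists_desc v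
  obtain ⟨g, hg⟩ := h'.exists_desc u
  refine ⟨⟨f, g, (h A).1 ?_, (h' B).1 ?_⟩, hf⟩
  · change u ≫ Hom.app f a ≫ Hom.app g a = u ≫ 𝟙 _
    rw [← Category.assoc, hf, hg, Category.comp_id]
  · change v ≫ Hom.app g a ≫ Hom.app f a = v ≫ 𝟙 _
    rw [← Category.assoc, hg, hf, Category.comp_id]

/-- the product of two families of points -/
noncomputable def tmQ (u : K ⟶ A.obj a) (v : K' ⟶ B.obj b) : K ⊗ K' ⟶ (A ⊗ B).obj (a ⊗ b) :=
  PQ.lift₂ (fun k l => tm (PQ.app u k) (PQ.app v l))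
    (fun l => by rw [PQ.app_infty, tm_infty_left]) (fun k => by rw [PQ.app_infty, tm_infty_right])
    (fun _ _ _ hk hl => tm_plot (PQ.app_plot u hk) (PQ.app_plot v hl))

theorem app_tmQ (u : K ⟶ A.obj a) (v : K' ⟶ B.obj b) (k : OnePoint K) (l : OnePoint K') :
    PQ.app (tmQ u v) (kp k l) = tm (PQ.app u k) (PQ.app v l) := PQ.app_lift₂_smash _ _ _ _ k l

/-- the tensor product of morphisms of words, in families -/
noncomputable def tensQ (a b c d : Sp0) :
    (rep a).obj c ⊗ (rep b).obj d ⟶ (rep (a ⊗ b)).obj (c ⊗ d) :=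
  PQ.lift₂ (fun x y => pr (unpr x ⊗ₘ unpr y))
    (fun y => by rw [unpr_infty, Sp0.zero_tensorHom, pr_zero])
    (fun x => by rw [unpr_infty, Sp0.tensorHom_zero, pr_zero])
    (fun _ _ _ hx hy => pr_plot (Sp0.plot_tensorHom (unpr_plot hx) (unpr_plot hy)))

/-- the action, in families -/
noncomputable def actQ (X : CF) (p q : Sp0) : X.obj p ⊗ (rep p).obj q ⟶ X.obj q :=
  PQ.lift₂ (fun x w => X.act (unpr w) x) (fun w => X.act_infty _)
    (fun x => by rw [unpr_infty, act_zero])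
    (fun _ _ _ hx hw => X.act_plot (unpr_plot hw) hx)

/-- the values of the morphism out of a tensor product of free objects -/
noncomputable def phiQ {X : CF} (g : K ⊗ K' ⟶ X.obj (a ⊗ b)) (c d : Sp0) :
    (smul K (rep a)).obj c ⊗ (smul K' (rep b)).obj d ⟶ X.obj (c ⊗ d) :=
  tensorμ K ((rep a).obj c) K' ((rep b).obj d) ≫ (g ⊗ₘ tensQ a b c d) ≫ actQ X (a ⊗ b) (c ⊗ d)

theorem app_phiQ {X : CF} (g : K ⊗ K' ⟶ X.obj (a ⊗ b)) {c d : Sp0} (k : OnePoint K)
    (l : OnePoint K') (w : a ⟶ c) (w' : b ⟶ d) :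
    PQ.app (phiQ g c d) (kp (sm k (pr w)) (sm l (pr w'))) = X.act (w ⊗ₘ w') (PQ.app g (kp k l)) := by
  change PQ.app (actQ X (a ⊗ b) (c ⊗ d)) (PQ.app (g ⊗ₘ tensQ a b c d)
    (PQ.app (tensorμ K ((rep a).obj c) K' ((rep b).obj d)) (kp (kp k (pr w)) (kp l (pr w'))))) = _
  rw [P251CA.PQ.app_tensorμ_kp, P251CA.PQ.app_tensorHom_kp]
  refine (PQ.app_lift₂_smash _ _ _ _ _ _).trans ?_
  have : PQ.app (tensQ a b c d) (kp (pr w) (pr w')) = pr (unpr (pr w) ⊗ₘ unpr (pr w')) :=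
    PQ.app_lift₂_smash _ _ _ _ _ _
  rw [this, unpr_pr, unpr_pr, unpr_pr]

theorem univ_tm_smul (K K' : PQ) (a b : Sp0) : Univ (tmQ (smulUnit K a) (smulUnit K' b)) := by
  intro X
  constructor
  · intro f g e
    apply tensor_ext
    intro c d x y
    obtain ⟨k, x, rfl⟩ := sm_surjective x
    obtain ⟨l, y, rfl⟩ := sm_surjective y
    obtain ⟨w, rfl⟩ := pr_surjective x
    obtain ⟨w', rfl⟩ := pr_surjective y
    have h1 := congrArg (fun z => X.act (w ⊗ₘ w') (PQ.app z (kp k l))) e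
    simp only [PQ.app_comp, app_tmQ, app_smulUnit] at h1
    rw [← fn_def, ← fn_def, ← fn_act, ← fn_act, act_tm, smul_act, smul_act, rep_act, rep_act,
      Category.id_comp, Category.id_comp] at h1
    exact h1
  · intro g
    refine ⟨tensorDesc
      { toFun := fun {c d} z w => PQ.app (phiQ g c d) (kp z w)
        infty_left := fun w => by rw [P251CA.PQ.kp_infty_left]; exact PQ.app_infty _
        infty_right := fun z => by rw [P251CA.PQ.kp_infty_right]; exact PQ.app_infty _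
        nat := fun p q x y => ?_
        plot := fun hz hw => PQ.app_plot (phiQ g _ _) (P251CA.PQ.kp_plot hz hw) }, ?_⟩
    · obtain ⟨k, x, rfl⟩ := sm_surjective x
      obtain ⟨l, y, rfl⟩ := sm_surjective y
      obtain ⟨w, rfl⟩ := pr_surjective x
      obtain ⟨w', rfl⟩ := pr_surjective y
      rw [smul_act, smul_act, rep_act, rep_act, app_phiQ, app_phiQ, ← act_comp,
        tensorHom_comp_tensorHom]
    · apply PQ.hom_ext'
      intro z
      obtain ⟨k, l, rfl⟩ := P251CA.PQ.kp_surjective z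
      rw [PQ.app_comp, app_tmQ, ← fn_def, tensorDesc_tm]
      refine (app_phiQ g k l (𝟙 a) (𝟙 b)).trans ?_
      rw [id_tensorHom_id, act_id]

/-- Tensor products of free objects are free. -/
theorem Univ.tm {u : K ⟶ A.obj a} {v : K' ⟶ B.obj b} (h : Univ u) (h' : Univ v) :
    Univ (tmQ u v) := by
  obtain ⟨e, rfl⟩ := (univ_smul K a).exists_iso h
  obtain ⟨e', rfl⟩ := (univ_smul K' b).exists_iso h'
  have := (univ_tm_smul K K' a b).iso (e ⊗ᵢ e')
  convert this using 1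
  apply PQ.hom_ext'
  intro z
  obtain ⟨k, l, rfl⟩ := P251CA.PQ.kp_surjective z
  rw [PQ.app_comp, app_tmQ, app_tmQ, ← fn_def, tensorIso_hom, tensorHom_tm]
  rfl

/-- the universal family of `rep a ⊗ F K` -/
noncomputable def repU (a : Sp0) (K : PQ) : K ⟶ (rep a ⊗ F.obj K).obj a :=
  smulUnit K a ≫ Hom.app (repF a K).inv a

theorem univ_repU (a : Sp0) (K : PQ) : Univ (repU a K) := (univ_smul K a).iso (repF a K).symm

theorem app_repU (a : Sp0) (K : PQ) (k : OnePoint K) :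
    PQ.app (repU a K) k = (rep a ⊗ F.obj K).act (ρ_ a).hom (tm (pr (𝟙 a)) (fm k pu)) := by
  have h : fn (repF a K).hom ((rep a ⊗ F.obj K).act (ρ_ a).hom (tm (pr (𝟙 a)) (fm k pu))) =
      sm k (pr (𝟙 a)) := by
    rw [fn_act, fn_repF_hom_pu, smul_act, rep_act, Iso.inv_hom_id]
  change fn (repF a K).inv (sm k (pr (𝟙 a))) = _
  rw [← h, ← fn_comp, Iso.hom_inv_id, fn_id]

end Vale.Agent.P251CI
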